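import Crest.Agent.X212.An31.Nk
import Crest.Agent.X212.St29.SbG
import Crest.Agent.X212.Sb67.W1

/-!
# Row 212, SB-AN (helper31): from one job to the faces
-/

set_option autoImplicit false
set_option linter.unusedSectionVars false
noncomputable section
open scoped Manifold ContDiff Topology InnerProductSpace Classical
open MeasureTheory Set Function Filter

namespace Crest.Agent.X212.An31
open An M G75 Nd18 Fk18 St29.Sb
open An.Job (Sol)
open Loc8 (hb)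
open Cht98 (hZ)
open Br55 (CN)

variable {κ lam : Type} [Fintype κ] [Fintype lam] [DecidableEq lam]

/-- the image of `X` is dense in `Z c` -/
theorem exists_φ {X : Mf 4} {A : Type} [Fintype A] {M : Mark X A κ} (C : Caps M) {c : M.Cl}
    {O : Set (C.Z c).M} (hO : IsOpen O) {z : (C.Z c).M} (hz : z ∈ O) :
    ∃ x ∉ M.sys.cores c.1, C.φ c x ∈ O := by
  have k : z ∈ closure (Loc8.ctr C c)ᶜ := (em (z ∈ Loc8.ctr C c)).elim
    (fun h => (Loc8.ctr_loc C h).1) fun h => subset_closure h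
  obtain ⟨w, h1, h2⟩ := mem_closure_iff.1 k O hO hz
  obtain ⟨x, hx, rfl⟩ := (Cyl58.caps_surj C w).resolve_right h2
  exact ⟨x, hx, h1⟩

theorem wi1 {Wi : Type} {X : Mf 4} {A : Type} [Fintype A] {M : Mark X A κ} {W : World M}
    {N : ML M lam} {Λ : Lns W N} {A' h : Type} [Fintype A'] [DecidableEq A'] [Fintype h] {r n : ℕ}
    {J : Job Wi Λ A' h r n} {c : M.Cl} {x : A} {e : Bool} {y : J.Obc c} (h : Sb67.W1 x e y) :
    Wi1 x e y := h

variable {Lm : LM κ lam} {y₀ : G75.YD κ lam} {P : Pk y₀} {S : Scene Lm} {z : Z0 P S} {Z : Z1 z}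
  {R : ℕ} {T : ℝ} (hy : y₀.OK) (ht : z.t.OK R z.c) (cn : CN S z.d z.c) (hZ : Z.OK T)
include hy ht

theorem wx_a (e : Bool) : (S.M.sys.w (wx z.t e)).band ⊆ (S.M.sys.w z.t.a).sd true := by
  have := S.M.con
  obtain ⟨o1, o2, o3, o4⟩ := Sb87.ord hy ht
  cases e
  · exact fun p hp => by_contra fun k => Wall.not_mem_sd _
      (o3 (.inl (Sb87.nest o2 o1 ((S.M.sys.w z.t.a).compl_subset true k)))) (o4 (.inr hp))
  · exact o2

include cn hZ

theorem ps : Ps z.D.W.toCaps Z.e z.t.a (wx z.t) := by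
  have f := fr_wx hy ht cn hZ
  have a := a_cyl ht cn hZ
  obtain ⟨-, -, o3, o4⟩ := Sb87.ord hy ht
  refine ⟨a.1, a.2, fun e k => (f e).1 (k ▸ a.1), fun w h1 h2 => ?_, fun e w h => ?_⟩
  · obtain ⟨x, hx, k1, k2⟩ := exists_φ z.D.W.toCaps ((isOpen_lt (Loc8.sm_hb _ (f true) true).continuous
      continuous_const).inter (isOpen_lt (Loc8.sm_hb _ (f false) false).continuous continuous_const))
      (mem_inter h1 h2)
    simp only [mem_ofPred_eq, hb, fun e => Cht98.hZ_φ z.D.W.toCaps (.inr (f e)) hx] at k1 k2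
    replace k1 : 1 * (S.M.bn z.t.h).s x < 1 := k1
    replace k2 : -1 * (S.M.bn z.t.b).s x < 1 := k2
    exact Wall.not_mem_sd _ (o3 (Sb87.hf_of _ false (show -3 < -1 * _ by linarith)))
      (o4 (Sb87.hf_of (x := x) _ true (show -3 < 1 * _ by linarith)))
  · obtain ⟨u, k1, k2⟩ := Cht98.exists_of_hZ z.D.W.toCaps (.inr (f e)) (h.trans (by norm_num))
    rw [← k2]
    refine lt_of_lt_of_eq ?_ (Cht98.hZ_φ z.D.W.toCaps (.inl a) k1).symm
    simpa [pm] using (S.M.bn z.t.a).mem_sd.1 (wx_a hy ht e ⟨_, rfl⟩)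

omit hy in
theorem pc_pos (hS : Z.Sm) {π : Reg S.A} (hπ : π ∈ Z.Rg true) {w} (hw : w ∈ z.D.W.pc Z.e (ou Z.e π)) :
    0 < Cht98.hZ z.D.W.toCaps Z.e z.t.a w := by
  have a := a_cyl ht cn hZ
  have p := hS.pc true π hπ
  by_contra k
  obtain ⟨x, hx, k1, k2⟩ := exists_φ z.D.W.toCaps ((Cyl58.isOpen_pc _ p.1).inter (isOpen_lt
    (Cht98.sm_hZ z.D.W.toCaps (.inl a)).continuous continuous_const))
    (mem_inter hw ((not_lt.1 k).lt_of_ne (Cht98.hZ_ne _ a.1 a.2 w)))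
  have k3 := (S.M.bn z.t.a).mem_sd.1 ((Finset.mem_filter.1 hπ).2.2
    (p.2 ((Cyl58.φ_mem_pc _ p.1 hx).1 k1)))
  rw [mem_ofPred_eq, Cht98.hZ_φ z.D.W.toCaps (.inl a) hx] at k2
  simp only [pm, if_true] at k3
  linarith

omit hy ht cn hZ in
variable (Lm) in
/-- **AN-WIN** -/
theorem winStmt : WinStmt Lm := fun _ P hP _ _ _ _ d D n m k ht hc =>
  (Sb67.w1P hP.y ht hc.ok P.N n D d m k).mono fun _ w Z hZ inp =>
    (w Z.F hZ.F Z.i Z.σ Z.τ Z.e hZ.c hZ.sub inp).mono fun _ h q y hq hy =>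
      (h q y hq hy).imp wi1 wi1

omit hy ht cn hZ in
/-- **AN** from its parts -/
theorem an_of (hJ : AnJ κ lam) (hG : GeoStmt Lm) (hN : NmStmt Lm) (hL : NlStmt Lm) :
    Sb84.AnStmt Lm := fun y₀ P hP => by
  obtain ⟨v, hv⟩ := hG y₀ P hP
  obtain ⟨K, K1, hK⟩ := hN y₀ P hP
  obtain ⟨C, C0, hC⟩ := hL y₀ P hP
  obtain ⟨C', δ, h⟩ := hJ v K C K1 C0
  refine ⟨C', δ, fun S t R c d ht cn c0 => (hv S t R c d ht cn c0).imp fun D hD n m k _ =>
    (winStmt Lm y₀ P hP S t R c d D n m k ht cn).mono fun T hW Z hZ hS inp =>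
      (((hK S t R c d D n m k T Z ht cn hZ inp).and (hC S t R c d D n m k T Z ht cn hZ inp)).and
        (hW Z hZ inp)).mono fun Adm ⟨⟨k1, k2⟩, k3⟩ q y hq hy => ?_⟩
  have w1 : ∀ e, Wi1 (Sb84.wl t e) e y := Bool.forall_bool.2 (k3 q y hq hy).symm
  obtain ⟨w, h1, h2, h3⟩ := h _ _ _ _ _ _ _ _ _ _ _ Z.J Z.e Z.ce q y t.a (Sb84.wl t)
    (hZ.F.J Z.i (ne_iff.2 ⟨_, hZ.c⟩) m k).1 ⟨Z.τ, none, Z.σ, rfl, by simp, hZ.c, hZ.sub⟩ hy
    (ps hP.y ht cn hZ) (hD n m k T Z hZ q y hy) (k1 q y hq hy).1 (k1 q y hq hy).2 (k2 q y hq hy) w1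
  refine ⟨w, h1, h2, fun Q hQ => ?_⟩
  have p := fun π (k : π ∈ Q) => (hS.pc true π (hQ k)).1
  have g : ∀ e, Continuous fun x => w.θ e (Sb84.ar D.W.toCaps Z.e (Sb84.tw y e) (Sb84.wl t e) x) :=
    fun e => by
      obtain ⟨ha, -⟩ := w1 e
      exact (h1.sm e).continuous.comp ((contDiffOn_len _ false).continuousOn.comp_continuous
        (Cht98.sm_hZ _ (.inr ha.2.2.2.2.1)).continuous fun _ => .inl (ha.2.2.1 _ ha.2.2.2.2.1))
  have i : Integrable (fun x => (1 - Sb84.gw w y x) * y.kd x) (Z.J.G Z.e y.s).F.μ :=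
    hy.int.bdd_mul (c := 1) (continuous_const.sub ((g true).mul (g false))).aestronglyMeasurable
      (.of_forall fun x => by
        have a := h1.mem true (Sb84.ar D.W.toCaps Z.e (Sb84.tw y true) (Sb84.wl t true) x)
        have b := h1.mem false (Sb84.ar D.W.toCaps Z.e (Sb84.tw y false) (Sb84.wl t false) x)
        exact abs_le.2 ⟨le_sub_comm.1 ((mul_le_one₀ a.2 b.1 b.2).trans (by norm_num)),
          sub_le_self _ (mul_nonneg a.1 b.1)⟩)
  rw [← integral_biUnion_finset Q (fun π k => (Cyl58.isOpen_pc _ (p π k)).measurableSet)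
    (fun π k π' k' n => Cyl58.disjoint_pc _ (p π k) (p π' k') fun e => n (hS.inj
      (by simp [hQ k]) (by simp [hQ k']) e)) fun _ _ => i.integrableOn]
  exact h3 _ (isClopen_biUnion_finset fun π k => Cyl58.isClopen_pc _ (p π k)) fun x hx =>
    let ⟨π, k, e⟩ := mem_iUnion₂.1 hx; pc_pos ht cn hZ hS (hQ k) e

end Crest.Agent.X212.An31
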