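import Crest.Agent.X212.St29.SbD
import Crest.Agent.X212.Sw87.SbD
import Crest.Agent.X212.Pat85.Fj

/-!
# Row 212, SB-AN (helper31): the necks that meet the head or the tail
-/

set_option autoImplicit false
set_option linter.unusedSectionVars false
noncomputable section
open scoped Manifold ContDiff Topology InnerProductSpace Classical
open MeasureTheory Set Function Filter

namespace Crest.Agent.X212.An31
open An M G75 Nd18 Fk18 Nka63 St29.Sb
open An.Job (Sol)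
open Loc8 (hb)
open Cht98 (hZ)
open Fin37 (Ix nk core)
open Br55 (CN)
open Dr59 (mf)
open Met55 (atx)

variable {κ lam : Type} [Fintype κ] [Fintype lam] [DecidableEq lam]

theorem vol_eq {Y Y' : Mf 3} {F : Fr Y.I Y.M κ} {F' : Fr Y'.I Y'.M κ}
    (g : Y.M ≃ₘ^∞⟮Y.I, Y'.I⟯ Y'.M) (h : F.IsVol) (h' : F'.IsVol)
    (e : ∀ k y, mf Y.I Y'.I g y (atx F.e y k) = atx F'.e (g y) k) :
    F'.μ.real univ = F.μ.real univ := by
  have := Int54.map_vol (Y'.dim.trans Y.dim.symm) h' h (f := g) MeasurableSet.univ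
    (fun w _ => g.contMDiff.mdifferentiable (by simp) w) g.injective.injOn fun y _ => by
      rw [show (fun a => mf Y.I Y'.I g y (Int54.fv F.e y a)) = Int54.fv F'.e (g y) from
        funext fun k => e k y]
      exact fun _ _ => rfl
  rw [image_univ, (show Surjective g from g.surjective).range_eq, Measure.restrict_univ,
    Measure.restrict_univ] at this
  rw [← this, map_measureReal_apply g.continuous.measurable MeasurableSet.univ, preimage_univ]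

/-- off the band the height is large -/
theorem three_le {X : Mf 4} (N : Band X) {x : X.M} {b : Bool} (h : x ∉ N.wall.band)
    (k : x ∈ N.wall.sd b) : 3 ≤ pm b * N.s x := by
  have h1 := N.three_le_abs_s fun e => h (N.slab_subset _ e)
  rwa [← one_mul |N.s x|, ← abs_pm b, ← abs_mul, abs_of_pos (N.mem_sd.1 k)] at h1

variable {Lm : LM κ lam} {y₀ : G75.YD κ lam} {P : Pk y₀} {S : Scene Lm} {z : Z0 P S} {Z : Z1 z}
  {R : ℕ} {T : ℝ} (hy : y₀.OK) (ht : z.t.OK R z.c) (cn : CN S z.d z.c) (hZ : Z.OK T)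

omit [DecidableEq lam] in
/-- the walls of the windows -/
abbrev wx (t : TD y₀ S) : Bool → S.A := fun e => bif e then t.h else t.b

include cn hZ in
theorem cel_s : S.M.sys.Cell (↑Z.σ ∪ ↑S.fz) ∧ Disjoint Z.σ S.fz :=
  cn.ok.cell _ _ (cn.cl.mem _ _ hZ.c).1

include hZ in
theorem mem_of {s : S.A ⊕ Unit → ℝ} (hs : s ∈ Job.cl Z.ce) {x : S.A} (n : x ≠ z.t.a)
    (h : (Z.F.Θ s).2 x ≠ 0) : x ∈ Z.σ ∪ S.fz := by
  by_contra k
  rw [Finset.mem_union, not_or] at k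
  have : s (.inl x) = 0 := hs.1 (.inl x) false (if_neg fun j => k.1 (hZ.sub j))
  simp [Nd18.Pr.Θ, update_of_ne n, Jb7.thS, k.2, this, Jb7.rho] at h

include ht cn hZ

theorem fr_fz {x : S.A} (h : x ∈ S.fz) (n : x ≠ z.t.a) : x ∈ S.M.sys.fr Z.e.1 := by
  obtain ⟨h1, h2⟩ := cel_s cn hZ
  have k : x ∉ Z.e.1 := fun k => (hZ.e k).elim n fun j => Finset.disjoint_left.1 h2 (hZ.sub j) h
  exact ⟨k, fun a' m => h1 (.inr h) ((hZ.e m).elim (fun e => .inr (e ▸ ht.fz.1)) fun j =>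
    .inl (hZ.sub j)) fun e => k (e ▸ m)⟩

theorem a_cyl : z.t.a ∈ Z.e.1 ∧ ¬S.M.pin z.t.a := ⟨hZ.a, (cn.ok.fz _ ht.fz.1).1⟩

include hy

theorem fr_wx (e : Bool) : wx z.t e ∈ S.M.sys.fr Z.e.1 := by
  obtain ⟨o1, -, o3, o4⟩ := Sb87.ord hy ht
  obtain ⟨x, hx, -⟩ := (S.M.sys.w z.t.a).ne true
  cases e
  · exact fr_fz ht cn hZ ht.fz.2.2.1 fun e : z.t.b = z.t.a =>
      Wall.not_mem_sd _ (o3 (.inl (o1 hx))) (o4 (.inr (e ▸ hx)))
  · obtain ⟨x, hx, k⟩ := (S.M.sys.w z.t.a).ne true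
    exact fr_fz ht cn hZ ht.fz.2.1 fun e : z.t.h = z.t.a => Wall.not_mem_sd _ (o1 hx) (e ▸ k)

/-- a wall with a parameter whose band meets the head or the tail is matched -/
theorem wall_cases {x : S.A} (m : x = z.t.a ∨ x ∈ Z.σ ∪ S.fz) {p : S.X.M}
    (hp : p ∈ (S.M.sys.w x).band) (h0 : 0 < (S.M.bn z.t.a).s p)
    (h1 : ∃ e, pm e * (S.M.bn (wx z.t e)).s p < 3) :
    x = z.t.a ∨ x = z.t.h ∨ x = z.t.b ∨ ∃ a : Sb87.TB z.t, x = (Sb87.IT z.t).f' a := by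
  refine or_iff_not_imp_left.2 fun n1 => or_iff_not_imp_left.2 fun n2 =>
    or_iff_not_imp_left.2 fun n3 => ?_
  replace m := m.resolve_left n1
  have cm : ∀ w ∈ S.fz, x ≠ w → S.M.sys.Cmp w x := fun w hw n =>
    (cel_s cn hZ).1 (.inr hw) (by simpa using m) n.symm
  rcases ht.side _ _ hZ.c x m with j | j | j | j
  · exact (n1 j).elim
  · exact (n2 j).elim
  · exact (Wall.not_mem_sd _ (j hp) ((S.M.bn z.t.a).mem_sd.2 (by simpa [pm] using h0))).elim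
  obtain ⟨b, k⟩ := Wall.exists_side (cm _ ht.fz.2.2.1 n3)
  cases b
  · obtain ⟨e, he⟩ := h1
    cases e
    · exact (he.not_ge (three_le _ (disjoint_right.1 (cm _ ht.fz.2.2.1 n3) hp) (k hp))).elim
    · exact (he.not_ge (three_le _ (disjoint_right.1 (cm _ ht.fz.2.1 n2) hp) (j hp))).elim
  · obtain ⟨a, rfl⟩ := ht.tw _ _ hZ.c x m k
    exact ⟨⟨a, k.trans subset_union_left⟩, rfl⟩

/-- the heights on `Z e` -/
theorem rs_iff {p : S.X.M} (hp : p ∉ S.M.sys.cores Z.e.1) :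
    z.D.W.φ Z.e p ∈ Rs z.D.W.toCaps Z.e z.t.a (wx z.t) ↔
      0 < (S.M.bn z.t.a).s p ∧ ∃ e, pm e * (S.M.bn (wx z.t e)).s p < 1 := by
  simp only [Rs, hb, mem_ofPred_eq, Cht98.hZ_φ _ (.inl (a_cyl ht cn hZ)) hp,
    fun e => Cht98.hZ_φ z.D.W.toCaps (.inr (fr_wx hy ht cn hZ e)) hp]

theorem nk_cases {s : S.A ⊕ Unit → ℝ} (hs : s ∈ Job.cl Z.ce) (i : Ix Z.J Z.e s)
    (h : ¬Disjoint (nk Z.J i).ψ.target (Rs z.D.W.toCaps Z.e z.t.a (wx z.t))) :
    i.1.1 = z.t.a ∨ i.1.1 = z.t.h ∨ i.1.1 = z.t.b ∨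
      ∃ a : Sb87.TB z.t, i.1.1 = (Sb87.IT z.t).f' a := by
  have hJ := (hZ.F.J Z.i (ne_iff.2 ⟨_, hZ.c⟩) z.m z.k).1
  obtain ⟨w, h1, h2⟩ := not_disjoint_iff.1 h
  rw [Pat85.nk_target hJ] at h1
  have o := Cht98.act_ok i.2
  obtain ⟨u, k1, k2⟩ := Cht98.exists_of_hZ z.D.W.toCaps o.mem ((abs_lt.2 h1.1).trans (by norm_num))
  rw [← k2] at h2
  obtain ⟨h3, e, h4⟩ := (rs_iff hy ht cn hZ k1).1 h2
  have h5 := o.tv_mem.1
  rw [Cht98.act_tv i.2] at h5
  exact wall_cases hy ht cn hZ (or_iff_not_imp_left.2 fun n => mem_of hZ hs n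
    (lt_of_lt_of_le (by norm_num) h5).ne') ⟨_, rfl⟩ h3 ⟨e, h4.trans (by norm_num)⟩

omit hy ht cn hZ in
variable (y₀) in
/-- the volumes of the cross-sections of the model -/
def vM : ℝ := ∑ a, (y₀.M.gY a).μ.real univ

omit hy ht cn hZ in
theorem le_vM {A₀ : Type} (I : MId y₀.M S.M A₀) (a : A₀) :
    (S.M.gY (I.f' a)).μ.real univ ≤ vM y₀ :=
  (vol_eq (I.g a) (y₀.M.gvol _) (S.M.gvol _) (I.gY a)).trans_le
    (Finset.single_le_sum (f := fun a => (y₀.M.gY a).μ.real univ) (fun _ _ => measureReal_nonneg)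
      (Finset.mem_univ _))

omit hy cn hZ in
theorem gY_le {x : S.A} (h : x = z.t.a ∨ x = z.t.h ∨ x = z.t.b ∨
    ∃ a : Sb87.TB z.t, x = (Sb87.IT z.t).f' a) : (S.M.gY x).μ.real univ ≤ vM y₀ := by
  obtain ⟨-, -, a3, a4⟩ := Sb87.f2 ht
  rcases h with rfl | rfl | rfl | ⟨a, rfl⟩
  exacts [a3 ▸ le_vM _ 0, a4 ▸ le_vM _ 1, ht.tf0.2 ▸ le_vM _ _, le_vM _ a]

/-- **AN-GEO, the field `nk`** -/
theorem nk_le {s : S.A ⊕ Unit → ℝ} (hs : s ∈ Job.cl Z.ce) :
    ∑ i : Ix Z.J Z.e s with ¬Disjoint (nk Z.J i).ψ.target (Rs z.D.W.toCaps Z.e z.t.a (wx z.t)),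
      (1 + vY (Z.J.xs i.1.1).D) ≤ 3 * (3 + Fintype.card y₀.A) * (1 + vM y₀) := by
  have hJ := (hZ.F.J Z.i (ne_iff.2 ⟨_, hZ.c⟩) z.m z.k).1
  have v0 : 0 ≤ vM y₀ := Finset.sum_nonneg fun _ _ => measureReal_nonneg
  refine ((Finset.sum_le_card_nsmul _ _ (1 + vM y₀) fun i hi => add_le_add_right ?_ 1).trans_eq
    (nsmul_eq_mul _ _)).trans (mul_le_mul_of_nonneg_right ?_ (by linarith))
  · exact (vol_eq (Z.J.g i.1.1) (hJ.xs _).1.vol (S.M.gvol _) (hJ.iso _ i.2.1).e).ge.trans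
      (gY_le ht (nk_cases hy ht cn hZ hs i (Finset.mem_filter.1 hi).2))
  have k := Finset.card_le_card_of_injOn (s := {i : Ix Z.J Z.e s | ¬Disjoint (nk Z.J i).ψ.target
      (Rs z.D.W.toCaps Z.e z.t.a (wx z.t))}) (t := (insert z.t.a (insert z.t.h (insert z.t.b
        (Finset.univ.map (Sb87.IT z.t).f')))) ×ˢ (Finset.univ : Finset (Option Bool))) Subtype.val
    (fun i hi => by
      simpa [eq_comm] using nk_cases hy ht cn hZ hs i (Finset.mem_filter.1 hi).2)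
    Subtype.val_injective.injOn
  have k1 := Fintype.card_le_of_embedding (Sb87.IT z.t).f
  have k2 := Finset.card_insert_le z.t.b (Finset.univ.map (Sb87.IT z.t).f')
  have k3 := Finset.card_insert_le z.t.h (insert z.t.b (Finset.univ.map (Sb87.IT z.t).f'))
  have k4 := Finset.card_insert_le z.t.a (insert z.t.h (insert z.t.b
    (Finset.univ.map (Sb87.IT z.t).f')))
  rw [Finset.card_map, Finset.card_univ] at k2
  rw [Finset.card_product, Finset.card_univ, Fintype.card_option, Fintype.card_bool] at k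
  exact_mod_cast k.trans (by omega)

end Crest.Agent.X212.An31
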