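import Crest.Agent.X212.Pte3.Th

/-! Row 212, NT-R LT: the reference does not move at the ends along the live coordinates. -/

set_option autoImplicit false
set_option linter.unusedSectionVars false
noncomputable section
open scoped Manifold ContDiff Topology InnerProductSpace NNReal
open MeasureTheory Set Function Filter

namespace Crest.Agent.X212.An31
open An M Nd18 Mod61 Nk89 Cht98 Rf65 Pte3 Prm93 Sob92 Met55

section gen
variable {E : Type} [NormedAddCommGroup E] [NormedSpace ℝ E] [FiniteDimensional ℝ E]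
  [MeasurableSpace E] [BorelSpace E]
  {HM : Type} [TopologicalSpace HM] {I : ModelWithCorners ℝ E HM} [I.Boundaryless]
  {M : Type} [TopologicalSpace M] [ChartedSpace HM M] [IsManifold I ∞ M]
  [MeasurableSpace M] [T2Space M] [BorelSpace M] [SecondCountableTopology M]
  {ι : Type} [Fintype ι] {lam : Type} [Fintype lam]

/-- two slices that are gauge equivalent to the same limit by the same gauge agree -/
theorem b_key {κ : Type} [Fintype κ] {T : Type} [NormedAddCommGroup T] [NormedSpace ℝ T]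
    {𝔉 : Fam I M (Option κ) lam T} {P : End 𝔉} {o : Ref 𝔉} {ψ : M → ℝ} {δ R₀ R : ℝ} (k : 𝔉.OK)
    (hP : P.OK ψ δ R₀) (hR : R₀ ≤ R) (hl : P.Lit o R)
    {β : YC P.Y.M κ lam} {v : P.Y.M × ℝ → CL β.m.V o.m.V} {t t' : T} (ht : t ∈ 𝔉.Q)
    (ht' : t' ∈ 𝔉.Q) (mv : Mod61.EqOn P.D.B P.D.Z univ (cy β) (cy (P.sl o (R + 1) t)) v 1)
    (mv' : Mod61.EqOn P.D.B P.D.Z univ (cy β) (cy (P.sl o (R + 1) t')) v 1) :
    ∀ x ∈ P.U R, o.b (t - t') x = 0 := fun x hx => by
  obtain ⟨z, hz, rfl⟩ := hP.exists_ψ hx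
  have hx' : P.K.ψ z ∈ P.U R₀ := ⟨hx.1, hR.trans_lt hx.2⟩
  have hW : ∀ t ∈ 𝔉.Q, ∀ a, o.W t 0 a (P.K.ψ z) = o.A0 a (P.K.ψ z) + opL (o.b t (P.K.ψ z) a) :=
    fun t ht a => by
      have := (o.connA k.B t).cc.proj a (P.K.ψ z)
      simp only [Ref.W, Md.addC, Fam.W0, (hP.S t ht _ hx' _ _).1, (hP.cf t ht _ hx').1,
        (hP.cf t ht _ hx').2, Pi.zero_apply, zero_smul, Finset.sum_const_zero, add_zero, map_zero,
        PiLp.zero_apply]
      exact this
  ext a : 1
  have e : ∀ t ∈ 𝔉.Q, Mod61.EqOn P.D.B P.D.Z univ (cy β) (cy (P.sl o (R + 1) t)) v 1 →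
      P.D.Z.D a v z + (∑ b, 𝔉.B.P a b (P.K.ψ z) • o.A0 b (P.K.ψ z) +
        opL (o.b t (P.K.ψ z) a)) ∘L v z - v z ∘L β.W a z.1 = 0 := fun t ht mv => by
    refine Eq.trans ?_ (mv.W z trivial a)
    rw [← o.b_proj k.B t, map_sum, ← Finset.sum_add_distrib]
    refine congrArg (fun w : CL o.m.V o.m.V => P.D.Z.D a v z + w ∘L v z - v z ∘L β.W a z.1) ?_
    refine Finset.sum_congr rfl fun b _ => ?_
    rw [map_smul, ← smul_add, ← hW t ht, (hl.at ht hz).2.2.2.1, (k.B.pr _).symm,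
      P.K.P b a z (hP.src (hR.trans hz.le))]
    rfl
  have e1 : opL (o.b (t - t') (P.K.ψ z) a) ∘L v z = 0 := by
    rw [← sub_self (0 : CL β.m.V o.m.V)]
    conv_rhs => rw [← e t ht mv]; arg 2; rw [e t ht mv, ← e t' ht' mv']
    simp only [map_sub, Pi.sub_apply, PiLp.sub_apply, ContinuousLinearMap.sub_comp,
      ContinuousLinearMap.add_comp]
    abel
  have e2 : v z ∘L trn (v z) = o.m.p (P.K.ψ z) :=
    (mv.m.uu' z trivial).trans (hl.at ht hz).1.symm
  refine Wz78.opL_inj ?_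
  rw [← Wz78.g_p' o.ok (o.b_mem _ _ a), ← e2, ContinuousLinearMap.mul_def,
    ← ContinuousLinearMap.comp_assoc, e1]
  simp

end gen

variable {Wi : Type} {X : Mf 4} {A κ lam : Type} [Fintype A] [Fintype κ] [Fintype lam]
  [DecidableEq lam] {M : Mark X A κ} {W : World M} {N : ML M lam} {Λ : Lns W N}
  {A' h : Type} [Fintype A'] [DecidableEq A'] [Fintype h] {r n : ℕ}
  {J : Job Wi Λ A' h r n} {c : M.Cl} {σ : Cel A'} {p : Prt A A' h} {U : Type} [Fintype U] {δ : ℝ}
  {b : Bp J c} {E : EC b p U δ}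

/-- along the live coordinates the reference moves with compact support -/
theorem b_cpt (H : CS σ E) (τ : Tq p U) (h : τ.2 = 0) : HasCompactSupport (E.o.b τ) := by
  refine HasCompactSupport.intro (H.ee.cov' E.R) fun x hx => ?_
  obtain ⟨i, hi⟩ := mem_iUnion.1 (not_not.1 hx)
  rcases (H.ee.okP i).dich H.F.Om le_rfl with k | k
  · obtain ⟨t, ht⟩ : (b.F p U δ).Q.Nonempty :=
      ⟨(fun a => b.s a, 0), H.mem_Q H.hb H.hb fun _ => rfl⟩
    have h1 : ∀ᶠ s : ℝ in 𝓝[≠] 0, t + s • τ ∈ (b.F p U δ).Q := nhdsWithin_le_nhds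
      ((by fun_prop : Continuous fun s : ℝ => t + s • τ).continuousAt.eventually
        (H.F.opn.mem_nhds (by simpa using ht)))
    obtain ⟨s, h2, h3⟩ := (h1.and self_mem_nhdsWithin).exists
    have mv := H.eo.mov i ((H.act_iff H.eo.d0 H.eo.d1).1 k)
    have e : E.lm i (t + s • τ) = E.lm i t := by
      simp only [EC.lm, Prod.snd_add, Prod.smul_snd, h, smul_zero, add_zero]
    have := b_key H.F (H.ee.okP i) H.eo.R5 (H.eo.lit i) (β := E.lim i t) (v := E.v i) h2 ht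
      (by
        have := mv _ h2
        unfold EC.lim at this ⊢
        exact e ▸ this) (mv _ ht) x hi
    rw [add_sub_cancel_left, map_smul, Pi.smul_apply] at this
    exact (smul_eq_zero.1 this).resolve_left h3
  · have := E.o.bP τ x
    rw [indicator_of_notMem (k ⟨hi.1, H.eo.R5.trans_lt hi.2⟩)] at this
    rw [← this]
    ext a : 1
    simp [Wz78.idx_apply]

/-- **B-HS** -/
theorem b_hs (H : CS σ E) (τ : Tq p U) (h : τ.2 = 0) :
    E.o.b τ ∈ Mod61.Hs (b.F p U δ).F0.toPre E.o.P1 :=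
  Hs_sec H.F.sup ⟨E.o.b τ, (E.o.sb.cb τ trivial).choose_spec.1, b_cpt H τ h, E.o.bP τ⟩

end Crest.Agent.X212.An31
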